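import Vale.Agent.P112.T.Basic

/-!
# P112, [LL] (LL1), part 1: real interpolation

A linear operator with a uniform weak type (2,2) bound `A` and with bounds `D` on `L¹` and `L^∞`
has norm `≤ C (A √(1 + log D) + 1)` on `L²`.
-/

open MeasureTheory Set Filter Topology
open scoped ENNReal

namespace Vale.Agent.P112.H455.LL

open T

/-- `∫ a²/t` over `a/D ≤ t ≤ 3 D a`. -/
theorem lint_log {c a D : ℝ} (hc : 0 ≤ c) (ha : 0 < a) (hD : 1 ≤ D) :
    ∫⁻ t in Icc (a / D) (3 * D * a), ENNReal.ofReal (c * t⁻¹) =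
      ENNReal.ofReal (c * Real.log (3 * D ^ 2)) := by
  have hD0 : 0 < D := by linarith
  have h1 : 0 < a / D := by positivity
  have h2 : 0 < 3 * D * a := by positivity
  have h12 : a / D ≤ 3 * D * a := by
    rw [div_le_iff₀ hD0]
    have h3 : 1 ≤ D * D := one_le_mul_of_one_le_of_one_le hD hD
    nlinarith
  have hci : IntegrableOn (fun t : ℝ => c * t⁻¹) (Icc (a / D) (3 * D * a)) := by
    apply ContinuousOn.integrableOn_Icc
    exact continuousOn_const.mul (continuousOn_id.inv₀ fun t ht => (h1.trans_le ht.1).ne')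
  rw [← ofReal_integral_eq_lintegral_ofReal hci]
  · congr 1
    rw [integral_Icc_eq_integral_Ioc, ← intervalIntegral.integral_of_le h12,
      intervalIntegral.integral_const_mul, integral_inv_of_pos h1 h2]
    congr 2
    field_simp
  · refine (ae_restrict_iff' measurableSet_Icc).2 (Eventually.of_forall fun t ht => ?_)
    have : 0 < t := h1.trans_le ht.1
    positivity

theorem lint_log_le {c a D : ℝ} (hc : 0 ≤ c) (ha : 0 ≤ a) (hD : 1 ≤ D) :
    ∫⁻ t in Ioi (0 : ℝ), (if t / (3 * D) < a ∧ a ≤ D * t then ENNReal.ofReal (c * t⁻¹) else 0) ≤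
      ENNReal.ofReal (c * Real.log (3 * D ^ 2)) := by
  have hD0 : 0 < D := by linarith
  rcases ha.eq_or_lt with ha | ha
  · rw [← ha]
    calc _ = ∫⁻ t in Ioi (0 : ℝ), (0 : ℝ≥0∞) := by
          refine setLIntegral_congr_fun measurableSet_Ioi fun t ht => ?_
          have ht : 0 < t := ht
          have : ¬ (t / (3 * D) < 0 ∧ (0 : ℝ) ≤ D * t) := fun h => by
            have : 0 < t / (3 * D) := by positivity
            linarith [h.1]
          simp only [if_neg this]
      _ = 0 := by simp
      _ ≤ _ := bot_le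
  · rw [← lint_log hc ha hD]
    calc ∫⁻ t in Ioi (0 : ℝ),
          (if t / (3 * D) < a ∧ a ≤ D * t then ENNReal.ofReal (c * t⁻¹) else 0)
        ≤ ∫⁻ t in Ioi (0 : ℝ),
          (Icc (a / D) (3 * D * a)).indicator (fun t => ENNReal.ofReal (c * t⁻¹)) t := by
          refine lintegral_mono fun t => ?_
          by_cases h : t / (3 * D) < a ∧ a ≤ D * t
          · have h1 : t ∈ Icc (a / D) (3 * D * a) := by
              refine ⟨?_, ?_⟩
              · rw [div_le_iff₀ hD0]; linarith [h.2]
              · have := (div_lt_iff₀ (by positivity : (0 : ℝ) < 3 * D)).1 h.1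
                linarith
            rw [if_pos h, indicator_of_mem h1]
          · rw [if_neg h]
            exact bot_le
      _ ≤ ∫⁻ t, (Icc (a / D) (3 * D * a)).indicator (fun t => ENNReal.ofReal (c * t⁻¹)) t :=
          setLIntegral_le_lintegral _ _
      _ = _ := lintegral_indicator measurableSet_Icc _

theorem lint_tail_le {a D : ℝ} (ha : 0 ≤ a) (hD : 1 ≤ D) :
    ∫⁻ t in Ioi (0 : ℝ), (if D * t < a then ENNReal.ofReal (3 * D * a) else 0) ≤
      ENNReal.ofReal (3 * a ^ 2) := by
  have hD0 : 0 < D := by linarith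
  calc ∫⁻ t in Ioi (0 : ℝ), (if D * t < a then ENNReal.ofReal (3 * D * a) else 0)
      = ∫⁻ t, (Ioi (0 : ℝ)).indicator
          (fun t => if D * t < a then ENNReal.ofReal (3 * D * a) else 0) t :=
        (lintegral_indicator measurableSet_Ioi _).symm
    _ ≤ ∫⁻ t, (Ioo (0 : ℝ) (a / D)).indicator (fun _ => ENNReal.ofReal (3 * D * a)) t := by
        refine lintegral_mono fun t => ?_
        by_cases h : t ∈ Ioi (0 : ℝ)
        · rw [indicator_of_mem h]
          by_cases h2 : D * t < a
          · have h1 : t ∈ Ioo (0 : ℝ) (a / D) := ⟨h, by rw [lt_div_iff₀ hD0]; linarith⟩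
            rw [if_pos h2, indicator_of_mem h1]
          · rw [if_neg h2]; exact bot_le
        · rw [indicator_of_notMem h]; exact bot_le
    _ = ENNReal.ofReal (3 * D * a) * ENNReal.ofReal (a / D) := by
        rw [lintegral_indicator_const measurableSet_Ioo, Real.volume_Ioo, sub_zero]
    _ = ENNReal.ofReal (3 * a ^ 2) := by
        rw [← ENNReal.ofReal_mul (by positivity)]
        congr 1
        field_simp

/-- Real interpolation. -/
theorem sq_le_of_weak {T : (ℝ × ℝ → ℝ) → ℝ × ℝ → ℝ}
    (hadd : ∀ f f', Nice f → Nice f' → ∀ z, T (fun x => f x + f' x) z = T f z + T f' z)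
    (hmeas : ∀ f, Nice f → Measurable (T f)) {A D : ℝ} (hD : 1 ≤ D)
    (hw : ∀ f, Nice f → ∀ t : ℝ, 0 < t → volume {z | t < |T f z|} ≤
      ENNReal.ofReal (A ^ 2 * t⁻¹ * t⁻¹) * ∫⁻ z, ENNReal.ofReal (f z ^ 2))
    (hinf : ∀ f, Nice f → ∀ c : ℝ, 0 ≤ c → (∀ z, |f z| ≤ c) → ∀ z, |T f z| ≤ D * c)
    (h1 : ∀ f, Nice f → ∫⁻ z, ENNReal.ofReal |T f z| ≤
      ENNReal.ofReal D * ∫⁻ z, ENNReal.ofReal |f z|)
    {f : ℝ × ℝ → ℝ} (hf : Nice f) :
    ∫⁻ z, ENNReal.ofReal (T f z ^ 2) ≤
      ENNReal.ofReal (18 * A ^ 2 * Real.log (3 * D ^ 2) + 6) *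
        ∫⁻ z, ENNReal.ofReal (f z ^ 2) := by
  have hD0 : 0 < D := by linarith
  have hlog : 0 ≤ Real.log (3 * D ^ 2) := Real.log_nonneg (by nlinarith)
  -- the two kernels
  set G1 : ℝ → ℝ × ℝ → ℝ≥0∞ := fun t z => if t / (3 * D) < |f z| ∧ |f z| ≤ D * t then
    ENNReal.ofReal (9 * A ^ 2 * f z ^ 2 * t⁻¹) else 0 with hG1
  set G2 : ℝ → ℝ × ℝ → ℝ≥0∞ := fun t z => if D * t < |f z| then
    ENNReal.ofReal (3 * D * |f z|) else 0 with hG2
  have hfm := hf.meas
  have hf2 : Measurable fun p : ℝ × (ℝ × ℝ) => |f p.2| := (hfm.comp measurable_snd).abs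
  have hm1 : Measurable fun p : ℝ × (ℝ × ℝ) => G1 p.1 p.2 := by
    refine Measurable.ite ?_ ?_ measurable_const
    · exact (measurableSet_lt (f := fun p : ℝ × (ℝ × ℝ) => p.1 / (3 * D)) (by fun_prop)
        hf2).inter (measurableSet_le hf2 (g := fun p : ℝ × (ℝ × ℝ) => D * p.1) (by fun_prop))
    · exact ENNReal.measurable_ofReal.comp (by fun_prop)
  have hm2 : Measurable fun p : ℝ × (ℝ × ℝ) => G2 p.1 p.2 := by
    refine Measurable.ite ?_ ?_ measurable_const
    · exact measurableSet_lt (f := fun p : ℝ × (ℝ × ℝ) => D * p.1) (by fun_prop) hf2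
    · exact ENNReal.measurable_ofReal.comp (by fun_prop)
  -- the distribution function
  have hdist : ∀ t : ℝ, 0 < t → volume {z | t < |T f z|} * ENNReal.ofReal t ≤
      ∫⁻ z, (G1 t z + G2 t z) := by
    intro t ht
    have hSm : MeasurableSet {z | |f z| ≤ t / (3 * D)} :=
      measurableSet_le hfm.abs measurable_const
    have hMm : MeasurableSet {z | t / (3 * D) < |f z| ∧ |f z| ≤ D * t} :=
      (measurableSet_lt measurable_const hfm.abs).inter (measurableSet_le hfm.abs measurable_const)
    have hLm : MeasurableSet {z | D * t < |f z|} := measurableSet_lt measurable_const hfm.abs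
    set S := {z | |f z| ≤ t / (3 * D)} with hS
    set Mi := {z | t / (3 * D) < |f z| ∧ |f z| ≤ D * t} with hMi
    set L := {z | D * t < |f z|} with hL
    have nS := hf.indicator hSm
    have nM := hf.indicator hMm
    have nL := hf.indicator hLm
    have htD : t / (3 * D) ≤ D * t := by
      rw [div_le_iff₀ (by positivity)]
      have : 1 ≤ D * D := one_le_mul_of_one_le_of_one_le hD hD
      nlinarith
    have hsplit : f = fun z => S.indicator f z + (Mi.indicator f z + L.indicator f z) := by
      funext z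
      by_cases h1 : |f z| ≤ t / (3 * D)
      · have a1 : z ∈ S := h1
        have a2 : z ∉ Mi := fun h => absurd h.1 (not_lt.2 h1)
        have a3 : z ∉ L := fun h => absurd (h1.trans htD) (not_le.2 h)
        rw [indicator_of_mem a1, indicator_of_notMem a2, indicator_of_notMem a3]; ring
      · by_cases h2 : |f z| ≤ D * t
        · have a1 : z ∉ S := h1
          have a2 : z ∈ Mi := ⟨not_le.1 h1, h2⟩
          have a3 : z ∉ L := fun h => absurd h2 (not_le.2 h)
          rw [indicator_of_notMem a1, indicator_of_mem a2, indicator_of_notMem a3]; ring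
        · have a1 : z ∉ S := h1
          have a2 : z ∉ Mi := fun h => h2 h.2
          have a3 : z ∈ L := not_le.1 h2
          rw [indicator_of_notMem a1, indicator_of_notMem a2, indicator_of_mem a3]; ring
    have hT : ∀ z, T f z = T (S.indicator f) z + (T (Mi.indicator f) z + T (L.indicator f) z) := by
      intro z
      conv_lhs => rw [hsplit]
      rw [hadd _ _ nS (nM.add nL), hadd _ _ nM nL]
    have hTS : ∀ z, |T (S.indicator f) z| ≤ t / 3 := by
      intro z
      have := hinf _ nS (t / (3 * D)) (by positivity) (fun z => by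
        by_cases h : z ∈ S
        · rw [indicator_of_mem h]; exact h
        · rw [indicator_of_notMem h, abs_zero]; positivity) z
      calc _ ≤ D * (t / (3 * D)) := this
        _ = t / 3 := by field_simp
    have hsub : {z | t < |T f z|} ⊆ {z | t / 3 < |T (Mi.indicator f) z|} ∪
        {z | t / 3 ≤ |T (L.indicator f) z|} := by
      intro z hz
      by_contra hc
      simp only [mem_union, mem_ofPred_eq, not_or, not_lt, not_le] at hc
      have h3 : t < |T f z| := hz
      rw [hT z] at h3
      have h4 := abs_add_le (T (S.indicator f) z) (T (Mi.indicator f) z + T (L.indicator f) z)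
      have h5 := abs_add_le (T (Mi.indicator f) z) (T (L.indicator f) z)
      linarith [hTS z, hc.1, hc.2]
    have hvM := hw _ nM (t / 3) (by positivity)
    have hvL : volume {z | t / 3 ≤ |T (L.indicator f) z|} ≤
        ENNReal.ofReal (3 * t⁻¹) * (ENNReal.ofReal D * ∫⁻ z, ENNReal.ofReal |L.indicator f z|) := by
      have h2 := mul_meas_ge_le_lintegral (μ := volume)
        (f := fun z => ENNReal.ofReal |T (L.indicator f) z|)
        (ENNReal.measurable_ofReal.comp (hmeas _ nL).abs) (ENNReal.ofReal (t / 3))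
      have h3 : {z | t / 3 ≤ |T (L.indicator f) z|} ⊆
          {z | ENNReal.ofReal (t / 3) ≤ ENNReal.ofReal |T (L.indicator f) z|} :=
        fun z hz => ENNReal.ofReal_le_ofReal hz
      have h4 : ENNReal.ofReal (3 * t⁻¹) * ENNReal.ofReal (t / 3) = 1 := by
        rw [← ENNReal.ofReal_mul (by positivity)]
        have : 3 * t⁻¹ * (t / 3) = 1 := by field_simp
        rw [this, ENNReal.ofReal_one]
      calc volume {z | t / 3 ≤ |T (L.indicator f) z|}
          ≤ volume {z | ENNReal.ofReal (t / 3) ≤ ENNReal.ofReal |T (L.indicator f) z|} :=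
            measure_mono h3
        _ = ENNReal.ofReal (3 * t⁻¹) * (ENNReal.ofReal (t / 3) *
            volume {z | ENNReal.ofReal (t / 3) ≤ ENNReal.ofReal |T (L.indicator f) z|}) := by
            rw [← mul_assoc, h4, one_mul]
        _ ≤ ENNReal.ofReal (3 * t⁻¹) * ∫⁻ z, ENNReal.ofReal |T (L.indicator f) z| := by
            gcongr
        _ ≤ _ := by
            gcongr
            exact h1 _ nL
    have e1 : ENNReal.ofReal (A ^ 2 * (t / 3)⁻¹ * (t / 3)⁻¹) *
        (∫⁻ z, ENNReal.ofReal (Mi.indicator f z ^ 2)) * ENNReal.ofReal t = ∫⁻ z, G1 t z := by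
      have hmm : Measurable fun z => ENNReal.ofReal (Mi.indicator f z ^ 2) :=
        ENNReal.measurable_ofReal.comp ((nM.meas).pow_const 2)
      rw [mul_right_comm, ← ENNReal.ofReal_mul (by positivity), ← lintegral_const_mul _ hmm]
      refine lintegral_congr fun z => ?_
      by_cases h : z ∈ Mi
      · rw [indicator_of_mem h, ← ENNReal.ofReal_mul (by positivity)]
        simp only [hG1]
        rw [if_pos (show t / (3 * D) < |f z| ∧ |f z| ≤ D * t from h)]
        congr 1
        field_simp
        ring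
      · rw [indicator_of_notMem h]
        simp only [hG1]
        rw [if_neg (show ¬ (t / (3 * D) < |f z| ∧ |f z| ≤ D * t) from h)]
        simp
    have e2 : ENNReal.ofReal (3 * t⁻¹) *
        (ENNReal.ofReal D * ∫⁻ z, ENNReal.ofReal |L.indicator f z|) * ENNReal.ofReal t =
          ∫⁻ z, G2 t z := by
      have hmm : Measurable fun z => ENNReal.ofReal |L.indicator f z| :=
        ENNReal.measurable_ofReal.comp nL.meas.abs
      have e3 : ENNReal.ofReal (3 * t⁻¹) *
          (ENNReal.ofReal D * ∫⁻ z, ENNReal.ofReal |L.indicator f z|) * ENNReal.ofReal t =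
          (ENNReal.ofReal (3 * t⁻¹) * ENNReal.ofReal D * ENNReal.ofReal t) *
            ∫⁻ z, ENNReal.ofReal |L.indicator f z| := by ring
      rw [e3, ← ENNReal.ofReal_mul (by positivity), ← ENNReal.ofReal_mul (by positivity),
        ← lintegral_const_mul _ hmm]
      refine lintegral_congr fun z => ?_
      by_cases h : z ∈ L
      · rw [indicator_of_mem h, ← ENNReal.ofReal_mul (by positivity)]
        simp only [hG2]
        rw [if_pos (show D * t < |f z| from h)]
        congr 1
        field_simp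
      · rw [indicator_of_notMem h]
        simp only [hG2]
        rw [if_neg (show ¬ (D * t < |f z|) from h)]
        simp
    calc volume {z | t < |T f z|} * ENNReal.ofReal t
        ≤ (volume {z | t / 3 < |T (Mi.indicator f) z|} +
          volume {z | t / 3 ≤ |T (L.indicator f) z|}) * ENNReal.ofReal t := by
          gcongr
          exact (measure_mono hsub).trans (measure_union_le _ _)
      _ ≤ (ENNReal.ofReal (A ^ 2 * (t / 3)⁻¹ * (t / 3)⁻¹) *
            (∫⁻ z, ENNReal.ofReal (Mi.indicator f z ^ 2)) +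
          ENNReal.ofReal (3 * t⁻¹) *
            (ENNReal.ofReal D * ∫⁻ z, ENNReal.ofReal |L.indicator f z|)) * ENNReal.ofReal t := by
          gcongr
      _ = ∫⁻ z, (G1 t z + G2 t z) := by
          rw [add_mul, e1, e2, lintegral_add_left]
          exact hm1.comp measurable_prodMk_left
  -- layer cake
  have hlc := lintegral_rpow_eq_lintegral_meas_lt_mul (volume : Measure (ℝ × ℝ))
    (f := fun z => |T f z|) (Eventually.of_forall fun z => abs_nonneg _)
    ((hmeas f hf).abs.aemeasurable) (p := 2) (by norm_num)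
  have e0 : ∫⁻ z, ENNReal.ofReal (T f z ^ 2) = ∫⁻ z, ENNReal.ofReal (|T f z| ^ (2 : ℝ)) := by
    refine lintegral_congr fun z => ?_
    rw [Real.rpow_two, sq_abs]
  rw [e0, hlc]
  have hswap : ∫⁻ t in Ioi (0 : ℝ), ∫⁻ z, (G1 t z + G2 t z) =
      ∫⁻ z, ∫⁻ t in Ioi (0 : ℝ), (G1 t z + G2 t z) := by
    refine lintegral_lintegral_swap ?_
    exact (hm1.add hm2).aemeasurable
  have hin : ∀ z, ∫⁻ t in Ioi (0 : ℝ), (G1 t z + G2 t z) ≤
      ENNReal.ofReal ((9 * A ^ 2 * Real.log (3 * D ^ 2) + 3) * f z ^ 2) := by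
    intro z
    have m1 : Measurable fun t => G1 t z := hm1.comp measurable_prodMk_right
    rw [lintegral_add_left m1]
    have a1 := lint_log_le (c := 9 * A ^ 2 * f z ^ 2) (by positivity) (abs_nonneg (f z)) hD
    have a2 := lint_tail_le (abs_nonneg (f z)) hD
    refine (add_le_add a1 a2).trans (le_of_eq ?_)
    rw [← ENNReal.ofReal_add (by positivity) (by positivity), sq_abs]
    congr 1
    ring
  calc ENNReal.ofReal 2 * ∫⁻ t in Ioi (0 : ℝ), volume {z | t < |T f z|} *
        ENNReal.ofReal (t ^ ((2 : ℝ) - 1))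
      ≤ ENNReal.ofReal 2 * ∫⁻ t in Ioi (0 : ℝ), ∫⁻ z, (G1 t z + G2 t z) := by
        gcongr ENNReal.ofReal 2 * ?_
        refine setLIntegral_mono' measurableSet_Ioi fun t ht => ?_
        have : t ^ ((2 : ℝ) - 1) = t := by
          rw [show (2 : ℝ) - 1 = 1 by norm_num, Real.rpow_one]
        rw [this]
        exact hdist t ht
    _ = ENNReal.ofReal 2 * ∫⁻ z, ∫⁻ t in Ioi (0 : ℝ), (G1 t z + G2 t z) := by rw [hswap]
    _ ≤ ENNReal.ofReal 2 * ∫⁻ z, ENNReal.ofReal ((9 * A ^ 2 * Real.log (3 * D ^ 2) + 3) *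
          f z ^ 2) := by
        gcongr with z
        exact hin z
    _ = _ := by
        have m1 : Measurable fun z => ENNReal.ofReal ((9 * A ^ 2 * Real.log (3 * D ^ 2) + 3) *
            f z ^ 2) := ENNReal.measurable_ofReal.comp (by fun_prop)
        have m2 : Measurable fun z => ENNReal.ofReal (f z ^ 2) :=
          ENNReal.measurable_ofReal.comp (by fun_prop)
        rw [← lintegral_const_mul _ m1, ← lintegral_const_mul _ m2]
        refine lintegral_congr fun z => ?_
        rw [← ENNReal.ofReal_mul (by norm_num), ← ENNReal.ofReal_mul (by positivity)]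
        congr 1
        ring

end Vale.Agent.P112.H455.LL
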