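import Vale.Agent.P112.H587.LL.Dec
import Vale.Agent.P112.H694.BandOut
import Vale.Agent.P112.H314.Long
import Vale.Agent.P112.H526.R0P
import Vale.Agent.P112.Top.Lin
import Vale.Agent.P112.H455.LL.Interp

/-!
# P112, [LL] (LL1): one band, `n` scales, norm `≤ C √(1 + log (n + 1))`
-/

open MeasureTheory Set Filter Topology
open scoped ENNReal

namespace Vale.Agent.P112.H455.LL

open T F30 H694.BO TOP

variable {M : ℕ}

/-- the tube of `z` (the points `ζ` seen by `z`) -/
theorem tube_eq (j : ℕ) (v : ℝ) (z : ℝ × ℝ) :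
    {ζ : ℝ × ℝ | |z.1 - ζ.1| ≤ 1 / (8 * 2 ^ j) ∧ |z.2 - ζ.2 - (z.1 - ζ.1) * v| ≤ 1} =
      Long.Tb (fun _ => v) j z := by
  ext ζ
  show (|z.1 - ζ.1| ≤ _ ∧ |z.2 - ζ.2 - (z.1 - ζ.1) * v| ≤ 1) ↔
    (|ζ.1 - z.1| ≤ _ ∧ |ζ.2 - z.2 - (ζ.1 - z.1) * v| ≤ 1)
  have h1 : |z.1 - ζ.1| = |ζ.1 - z.1| := abs_sub_comm _ _
  have h2 : |z.2 - ζ.2 - (z.1 - ζ.1) * v| = |ζ.2 - z.2 - (ζ.1 - z.1) * v| := by
    rw [← abs_neg]
    congr 1
    ring
  rw [h1, h2]

/-- One scale is bounded on `L^∞` (no regularity of the field needed). -/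
theorem T_sup (κ : Ker M) : ∃ D : ℝ, 0 < D ∧ ∀ (u : ℝ × ℝ → ℝ) (j : ℕ) (f : ℝ × ℝ → ℝ), Nice f →
    ∀ c : ℝ, 0 ≤ c → (∀ z, |f z| ≤ c) → ∀ z, |κ.T u j f z| ≤ D * c := by
  obtain ⟨D, hD, hk⟩ := κ.k_bdd
  refine ⟨D, hD, fun u j f hf c hc hf1 z => ?_⟩
  have hp0 : (0 : ℝ) < 2 ^ j := by positivity
  set v := u z with hv
  have hvol := Long.Tb_vol (u := fun _ => v) measurable_const (e := 0) (by norm_num)
    (fun _ _ _ => by simp) j z
  have hfin : volume (Long.Tb (fun _ => v) j z) ≠ ⊤ :=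
    ne_top_of_le_ne_top ENNReal.ofReal_ne_top hvol
  have hTm : MeasurableSet (Long.Tb (fun _ => v) j z) := Long.Tb_meas measurable_const j z
  have h1 : ∀ ζ, ‖κ.k j v z ζ * f ζ‖ ≤
      (Long.Tb (fun _ => v) j z).indicator (fun _ => D * 2 ^ j * c) ζ := by
    intro ζ
    rw [Real.norm_eq_abs]
    by_cases hz : κ.k j v z ζ = 0
    · rw [hz, zero_mul, abs_zero]
      exact indicator_nonneg (fun _ _ => by positivity) _
    · have h2 : ζ ∈ {ζ : ℝ × ℝ | |z.1 - ζ.1| ≤ 1 / (8 * 2 ^ j) ∧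
          |z.2 - ζ.2 - (z.1 - ζ.1) * v| ≤ 1} := κ.k_supp hz
      rw [tube_eq] at h2
      rw [indicator_of_mem h2, abs_mul]
      exact mul_le_mul (hk _ _ _ _) (hf1 ζ) (abs_nonneg _) (by positivity)
  have hint : Integrable ((Long.Tb (fun _ => v) j z).indicator fun _ => D * 2 ^ j * c) :=
    (integrable_indicator_iff hTm).2 (integrableOn_const hfin)
  calc |κ.T u j f z| = ‖∫ ζ, κ.k j v z ζ * f ζ‖ := rfl
    _ ≤ ∫ ζ, (Long.Tb (fun _ => v) j z).indicator (fun _ => D * 2 ^ j * c) ζ :=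
        norm_integral_le_of_norm_le hint (Eventually.of_forall h1)
    _ = (volume (Long.Tb (fun _ => v) j z)).toReal * (D * 2 ^ j * c) := by
        rw [integral_indicator hTm, setIntegral_const, smul_eq_mul, measureReal_def]
    _ ≤ (1 / 2 ^ j) * (D * 2 ^ j * c) := by
        refine mul_le_mul_of_nonneg_right ?_ (by positivity)
        exact ENNReal.toReal_le_of_le_ofReal (by positivity) hvol
    _ = D * c := by field_simp

theorem T_nice (κ : Ker M) {u : ℝ × ℝ → ℝ} (hu : Field u) (j : ℕ) {f : ℝ × ℝ → ℝ}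
    (hf : Nice f) : Nice (κ.T u j f) := by
  obtain ⟨r, hr⟩ := hf.supp
  obtain ⟨U, hU⟩ := hu.bdd
  obtain ⟨D, hD, hk⟩ := k_le_box κ
  have hU0 : 0 ≤ U := (abs_nonneg _).trans (hU 0)
  refine ⟨T_meas κ hu.meas j hf, T_bdd κ u j hf, ⟨|r| + 2 + U, fun z hz => ?_⟩⟩
  unfold Ker.T
  rw [integral_eq_zero_of_ae]
  refine Eventually.of_forall fun ζ => ?_
  by_contra hne
  have hk0 : κ.k j (u z) z ζ ≠ 0 := left_ne_zero_of_mul hne
  have hf0 : f ζ ≠ 0 := right_ne_zero_of_mul hne
  have hbox : z - ζ ∈ Box U := by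
    by_contra hc
    have := hk u U hU j z ζ
    rw [indicator_of_notMem hc, mul_zero] at this
    exact hk0 (abs_eq_zero.1 (le_antisymm this (abs_nonneg _)))
  have hζ : |ζ.1| < r ∧ |ζ.2| < r := by
    by_contra hc
    apply hf0
    apply hr
    by_contra hn
    push Not at hn
    exact hc hn
  obtain ⟨⟨c1, c2⟩, ⟨d1, d2⟩⟩ := hbox
  obtain ⟨a1, a2⟩ := abs_lt.1 hζ.1
  obtain ⟨b1, b2⟩ := abs_lt.1 hζ.2
  have hra := le_abs_self r
  rw [Prod.fst_sub] at c1 c2
  rw [Prod.snd_sub] at d1 d2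
  rcases hz with h | h
  · have : |z.1| < |r| + 2 + U := abs_lt.2 ⟨by linarith, by linarith⟩
    linarith
  · have : |z.2| < |r| + 2 + U := abs_lt.2 ⟨by linarith, by linarith⟩
    linarith

theorem Tn_nice (κ : Ker M) {u : ℝ × ℝ → ℝ} (hu : Field u) (n : ℕ) {f : ℝ × ℝ → ℝ}
    (hf : Nice f) : Nice (Tn κ u n f) :=
  Nice.sum _ fun j _ => T_nice κ hu j hf

/-- Weak type (2,2), uniform in the number of scales. -/
theorem Tn_weak {κ : Ker M} {A : ℝ} (hA : 0 ≤ A) {u : ℝ × ℝ → ℝ} (hu : Field u) (n : ℕ)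
    (h0 : ∀ g : ℝ × ℝ → ℝ, Nice g → (∀ z, |g z| ≤ 1) →
      ∫ ζ, (∑ j ∈ Finset.range n, κ.S u j g ζ) ^ 2 ≤ A ^ 2 * (volume {z | g z ≠ 0}).toReal)
    {f : ℝ × ℝ → ℝ} (hf : Nice f) {t : ℝ} (ht : 0 < t) :
    volume {z | t < |Tn κ u n f z|} ≤
      ENNReal.ofReal (A ^ 2 * t⁻¹ * t⁻¹) * ∫⁻ z, ENNReal.ofReal (f z ^ 2) := by
  have hT := Tn_nice κ hu n hf
  set h := Tn κ u n f with hh
  -- the test function
  set g : ℝ × ℝ → ℝ := fun z => if t < |h z| then SignType.sign (h z) else 0 with hg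
  have hGm : MeasurableSet {z | t < |h z|} := measurableSet_lt measurable_const hT.meas.abs
  have hsm : Measurable fun z => ((SignType.sign (h z) : SignType) : ℝ) := by
    have : (fun z => ((SignType.sign (h z) : SignType) : ℝ)) =
        fun z => if 0 < h z then (1 : ℝ) else if h z < 0 then -1 else 0 := by
      funext z
      rcases lt_trichotomy (h z) 0 with h1 | h1 | h1
      · rw [sign_neg h1, if_neg (not_lt.2 h1.le), if_pos h1]; rfl
      · rw [h1]; simp
      · rw [sign_pos h1, if_pos h1]; rfl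
    rw [this]
    exact Measurable.ite (measurableSet_lt measurable_const hT.meas) measurable_const
      (Measurable.ite (measurableSet_lt hT.meas measurable_const) measurable_const
        measurable_const)
  have hgN : Nice g := by
    obtain ⟨r, hr⟩ := hT.supp
    refine ⟨Measurable.ite hGm hsm measurable_const, ⟨1, fun z => ?_⟩, ⟨r, fun z hz => ?_⟩⟩
    · simp only [hg]
      split_ifs
      · rcases lt_trichotomy (h z) 0 with h1 | h1 | h1
        · rw [sign_neg h1]; norm_num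
        · rw [h1]; simp
        · rw [sign_pos h1]; norm_num
      · norm_num
    · simp only [hg]
      rw [hr z hz]
      rw [if_neg (by rw [abs_zero]; exact not_lt.2 ht.le)]
  have hg1 : ∀ z, |g z| ≤ 1 := by
    intro z
    simp only [hg]
    split_ifs
    · rcases lt_trichotomy (h z) 0 with h1 | h1 | h1
      · rw [sign_neg h1]; norm_num
      · rw [h1]; simp
      · rw [sign_pos h1]; norm_num
    · norm_num
  have hgne : {z | g z ≠ 0} = {z | t < |h z|} := by
    ext z
    simp only [mem_ofPred_eq, hg]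
    constructor
    · intro h1
      by_contra h2
      exact h1 (by rw [if_neg h2])
    · intro h1
      rw [if_pos h1]
      have : h z ≠ 0 := by
        intro h3
        rw [h3, abs_zero] at h1
        linarith
      rcases lt_or_gt_of_ne this with h4 | h4
      · rw [sign_neg h4]; norm_num
      · rw [sign_pos h4]; norm_num
  set G := {z | t < |h z|} with hG
  have hGfin : volume G ≠ ⊤ := by
    rw [← hgne]
    exact ((cls_nice.bm g hgN).supp).ne
  -- lower bound
  have hlow : t * (volume G).toReal ≤ ∫ z, h z * g z := by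
    have h1 : ∫ z, G.indicator (fun _ => t) z ≤ ∫ z, h z * g z := by
      refine integral_mono ((integrable_indicator_iff hGm).2 (integrableOn_const hGfin))
        (hT.mul hgN).integrable fun z => ?_
      by_cases hz : z ∈ G
      · have hz' : t < |h z| := hz
        rw [indicator_of_mem hz]
        simp only [hg, if_pos hz']
        have : h z * (SignType.sign (h z) : ℝ) = |h z| := by
          rw [mul_comm, sign_mul_self]
        rw [this]
        exact hz'.le
      · have hz' : ¬ t < |h z| := hz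
        rw [indicator_of_notMem hz]
        simp only [hg, if_neg hz', mul_zero]
        exact le_rfl
    rw [integral_indicator hGm, setIntegral_const, smul_eq_mul, mul_comm] at h1
    exact h1
  -- upper bound
  have hup : ∫ z, h z * g z ≤ √(∫ z, f z ^ 2) * (A * √((volume G).toReal)) := by
    rw [hh, Tn_adj κ hu n hf hgN]
    have hS : Nice fun ζ => ∑ j ∈ Finset.range n, κ.S u j g ζ :=
      Nice.sum _ fun j _ => κ.S_nice hu j hgN
    refine (le_abs_self _).trans ((H694.IsOp.cauchy (memLp_two hf) (memLp_two hS)).trans ?_)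
    gcongr
    calc √(∫ ζ, (∑ j ∈ Finset.range n, κ.S u j g ζ) ^ 2)
        ≤ √(A ^ 2 * (volume {z | g z ≠ 0}).toReal) := Real.sqrt_le_sqrt (h0 g hgN hg1)
      _ = A * √((volume G).toReal) := by
          rw [Real.sqrt_mul (sq_nonneg _), Real.sqrt_sq hA, hgne]
  set V := (volume G).toReal with hV
  set F2 := ∫ z, f z ^ 2 with hF2
  have hV0 : 0 ≤ V := ENNReal.toReal_nonneg
  have hF0 : 0 ≤ F2 := integral_nonneg fun z => sq_nonneg _
  have hfin : t ^ 2 * V ≤ A ^ 2 * F2 := by
    have h1 : t * V ≤ √F2 * (A * √V) := hlow.trans hup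
    have h2 : √V * √V = V := Real.mul_self_sqrt hV0
    have h3 : √F2 * √F2 = F2 := Real.mul_self_sqrt hF0
    rcases hV0.eq_or_lt with h4 | h4
    · rw [← h4, mul_zero]; positivity
    · have h5 : 0 < √V := Real.sqrt_pos.2 h4
      have h6 : t * √V ≤ √F2 * A := by
        have : t * √V * √V ≤ √F2 * A * √V := by
          calc t * √V * √V = t * V := by rw [mul_assoc, h2]
            _ ≤ √F2 * (A * √V) := h1
            _ = _ := by ring
        exact le_of_mul_le_mul_right this h5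
      calc t ^ 2 * V = (t * √V) ^ 2 := by rw [mul_pow, Real.sq_sqrt hV0]
        _ ≤ (√F2 * A) ^ 2 := by gcongr
        _ = A ^ 2 * F2 := by rw [mul_pow, Real.sq_sqrt hF0]; ring
  have hint2 : ∫⁻ z, ENNReal.ofReal (f z ^ 2) = ENNReal.ofReal F2 :=
    (ofReal_integral_eq_lintegral_ofReal hf.sq.integrable
      (Eventually.of_forall fun _ => sq_nonneg _)).symm
  rw [hint2, ← ENNReal.ofReal_mul (by positivity), ← ENNReal.ofReal_toReal hGfin]
  refine ENNReal.ofReal_le_ofReal ?_
  calc V = t ^ 2 * V * (t⁻¹ * t⁻¹) := by field_simp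
    _ ≤ A ^ 2 * F2 * (t⁻¹ * t⁻¹) := by gcongr
    _ = A ^ 2 * t⁻¹ * t⁻¹ * F2 := by ring

/-- `L¹` bound from the `L^∞` bound of the adjoint. -/
theorem Tn_one {κ : Ker M} {D : ℝ} (hD : 0 ≤ D) {u : ℝ × ℝ → ℝ} (hu : Field u) (n : ℕ)
    (hS : ∀ (j : ℕ) (g : ℝ × ℝ → ℝ), Nice g → (∀ z, |g z| ≤ 1) → ∀ ζ, |κ.S u j g ζ| ≤ D)
    {f : ℝ × ℝ → ℝ} (hf : Nice f) :
    ∫⁻ z, ENNReal.ofReal |Tn κ u n f z| ≤
      ENNReal.ofReal (n * D) * ∫⁻ z, ENNReal.ofReal |f z| := by
  have hT := Tn_nice κ hu n hf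
  set h := Tn κ u n f with hh
  have hsm : Measurable fun z => ((SignType.sign (h z) : SignType) : ℝ) := by
    have : (fun z => ((SignType.sign (h z) : SignType) : ℝ)) =
        fun z => if 0 < h z then (1 : ℝ) else if h z < 0 then -1 else 0 := by
      funext z
      rcases lt_trichotomy (h z) 0 with h1 | h1 | h1
      · rw [sign_neg h1, if_neg (not_lt.2 h1.le), if_pos h1]; rfl
      · rw [h1]; simp
      · rw [sign_pos h1, if_pos h1]; rfl
    rw [this]
    exact Measurable.ite (measurableSet_lt measurable_const hT.meas) measurable_const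
      (Measurable.ite (measurableSet_lt hT.meas measurable_const) measurable_const
        measurable_const)
  have hg1 : ∀ z, |((SignType.sign (h z) : SignType) : ℝ)| ≤ 1 := by
    intro z
    rcases lt_trichotomy (h z) 0 with h1 | h1 | h1
    · rw [sign_neg h1]; norm_num
    · rw [h1]; simp
    · rw [sign_pos h1]; norm_num
  have hgN : Nice fun z => ((SignType.sign (h z) : SignType) : ℝ) := by
    obtain ⟨r, hr⟩ := hT.supp
    exact ⟨hsm, ⟨1, hg1⟩, ⟨r, fun z hz => by rw [hr z hz]; simp⟩⟩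
  have e1 : ∫⁻ z, ENNReal.ofReal |h z| = ENNReal.ofReal (∫ z, |h z|) :=
    (ofReal_integral_eq_lintegral_ofReal hT.abs.integrable
      (Eventually.of_forall fun _ => abs_nonneg _)).symm
  have e2 : ∫⁻ z, ENNReal.ofReal |f z| = ENNReal.ofReal (∫ z, |f z|) :=
    (ofReal_integral_eq_lintegral_ofReal hf.abs.integrable
      (Eventually.of_forall fun _ => abs_nonneg _)).symm
  rw [e1, e2, ← ENNReal.ofReal_mul (by positivity)]
  refine ENNReal.ofReal_le_ofReal ?_
  have e3 : ∫ z, |h z| = ∫ z, h z * ((SignType.sign (h z) : SignType) : ℝ) := by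
    refine integral_congr_ae (Eventually.of_forall fun z => ?_)
    show |h z| = h z * ((SignType.sign (h z) : SignType) : ℝ)
    rw [mul_comm, sign_mul_self]
  rw [e3]
  conv_lhs => rw [hh]
  rw [Tn_adj κ hu n hf hgN]
  have hSN : Nice fun ζ => ∑ j ∈ Finset.range n,
      κ.S u j (fun z => ((SignType.sign (h z) : SignType) : ℝ)) ζ :=
    Nice.sum _ fun j _ => κ.S_nice hu j hgN
  rw [← integral_const_mul]
  refine integral_mono (hf.mul hSN).integrable (hf.abs.integrable.const_mul _) fun z => ?_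
  have h2 : |∑ j ∈ Finset.range n,
      κ.S u j (fun z => ((SignType.sign (h z) : SignType) : ℝ)) z| ≤ n * D := by
    refine (Finset.abs_sum_le_sum_abs _ _).trans ?_
    calc _ ≤ ∑ j ∈ Finset.range n, D := Finset.sum_le_sum fun j _ => hS j _ hgN hg1 z
      _ = n * D := by rw [Finset.sum_const, Finset.card_range, nsmul_eq_mul]
  calc f z * _ ≤ |f z * _| := le_abs_self _
    _ = |f z| * |_| := abs_mul _ _
    _ ≤ |f z| * (n * D) := by gcongr
    _ = n * D * |f z| := mul_comm _ _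

/-- **(LL1)** one band, `n` scales: the norm is at most `B √(1 + log (n + 1))`. -/
theorem bandBoundW_sqrtlog {e : ℝ} (he : e ≤ 1 / 2) (hM : 8 ≤ M) :
    H587.LL.BandBoundW e M (fun n => √(1 + Real.log (n + 1))) := by
  intro κ
  obtain ⟨C0, hC0, h0⟩ := H526.R0.r0 hM κ
  obtain ⟨D1, hD1, hS⟩ := Long.S_bdd κ
  obtain ⟨D2, hD2, hT⟩ := T_sup κ
  set D := 1 + D1 + D2 with hDdef
  have hD : 1 ≤ D := by linarith
  have hlD : 0 ≤ Real.log D := Real.log_nonneg hD
  -- the final constant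
  set B2 : ℝ := 18 * C0 * (2 + 2 * Real.log D + 2) + 6 with hB2
  have hB20 : 0 ≤ B2 := by positivity
  refine ⟨√B2, Real.sqrt_nonneg _, ?_⟩
  intro u hu hub hlip n F hF hFc
  have hfield : Field u := ⟨hu.measurable, hub⟩
  have hN : Nice F := nice_of_cc hF hFc
  have hn0 : (0 : ℝ) ≤ n := Nat.cast_nonneg n
  set Dn : ℝ := D * (n + 1) with hDn
  have hDn1 : 1 ≤ Dn := by
    rw [hDn]
    exact one_le_mul_of_one_le_of_one_le hD (by linarith)
  have key := sq_le_of_weak (T := Tn κ u n) (A := √C0) (D := Dn)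
    (fun f f' hf hf' z => Tn_add κ u n hf hf' z)
    (fun f hf => Tn_meas κ hfield.meas n hf) hDn1
    (fun f hf t ht => Tn_weak (Real.sqrt_nonneg _) hfield n (fun g hg hg1 => by
      rw [Real.sq_sqrt hC0.le]
      exact h0 u hfield n g hg hg1) hf ht)
    (fun f hf c hc hfc z => by
      unfold Tn
      refine (Finset.abs_sum_le_sum_abs _ _).trans ?_
      calc ∑ j ∈ Finset.range n, |κ.T u j f z| ≤ ∑ j ∈ Finset.range n, D2 * c :=
            Finset.sum_le_sum fun j _ => hT u j f hf c hc hfc z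
        _ = n * (D2 * c) := by rw [Finset.sum_const, Finset.card_range, nsmul_eq_mul]
        _ ≤ Dn * c := by
            rw [← mul_assoc]
            refine mul_le_mul_of_nonneg_right ?_ hc
            rw [hDn]
            nlinarith)
    (fun f hf => by
      refine (Tn_one hD1.le hfield n (fun j g hg hg1 ζ =>
        hS u hfield e he hlip j g hg hg1 ζ) hf).trans ?_
      gcongr
      rw [hDn]
      nlinarith) hN
  have hF2 : ∫⁻ z, ENNReal.ofReal (F z ^ 2) = ENNReal.ofReal (∫ z, F z ^ 2) :=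
    (ofReal_integral_eq_lintegral_ofReal hN.sq.integrable
      (Eventually.of_forall fun _ => sq_nonneg _)).symm
  have hI0 : 0 ≤ ∫ z, F z ^ 2 := integral_nonneg fun _ => sq_nonneg _
  have hlog1 : 0 ≤ Real.log (n + 1) := Real.log_nonneg (by linarith)
  have hlog : Real.log (3 * Dn ^ 2) ≤ 2 + 2 * Real.log D + 2 * Real.log (n + 1) := by
    have hD0 : 0 < D := by linarith
    have hn1 : (0 : ℝ) < n + 1 := by linarith
    rw [Real.log_mul (by norm_num) (by positivity), Real.log_pow, hDn,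
      Real.log_mul hD0.ne' hn1.ne']
    have h3 : Real.log 3 ≤ 2 := by
      have := Real.log_le_sub_one_of_pos (show (0 : ℝ) < 3 by norm_num)
      linarith
    push_cast
    linarith
  have hlog0 : 0 ≤ Real.log (3 * Dn ^ 2) := Real.log_nonneg (by nlinarith)
  rw [hF2, ← ENNReal.ofReal_mul (by positivity)] at key
  have hsq : (√B2 * √(1 + Real.log (n + 1))) ^ 2 = B2 * (1 + Real.log (n + 1)) := by
    rw [mul_pow, Real.sq_sqrt hB20, Real.sq_sqrt (by linarith)]
  show ∫ z, Tn κ u n F z ^ 2 ≤ (√B2 * √(1 + Real.log (n + 1))) ^ 2 * ∫ z, F z ^ 2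
  rw [hsq, integral_eq_lintegral_of_nonneg_ae (Eventually.of_forall fun _ => sq_nonneg _)
    ((Tn_meas κ hfield.meas n hN).pow_const 2).aestronglyMeasurable]
  refine (ENNReal.toReal_le_of_le_ofReal (by positivity) key).trans ?_
  refine mul_le_mul_of_nonneg_right ?_ hI0
  rw [Real.sq_sqrt hC0.le, hB2]
  calc 18 * C0 * Real.log (3 * Dn ^ 2) + 6
      ≤ 18 * C0 * (2 + 2 * Real.log D + 2 * Real.log (n + 1)) + 6 := by gcongr
    _ ≤ (18 * C0 * (2 + 2 * Real.log D + 2) + 6) * (1 + Real.log (n + 1)) := by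
        have h4 : 0 ≤ C0 * Real.log D := mul_nonneg hC0.le hlD
        have h5 : 0 ≤ C0 * Real.log (n + 1) := mul_nonneg hC0.le hlog1
        have h6 : 0 ≤ C0 * Real.log D * Real.log (n + 1) := mul_nonneg h4 hlog1
        nlinarith

end Vale.Agent.P112.H455.LL
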